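import Vale.Agent.P057T.Bg.Defs
import Vale.Agent.P057T.Rg.Dem

/-! Upper bound for subsets of a box. -/

set_option linter.all false

open Finset Matrix
open scoped Real
open Vale.Agent.P267.H775 Vale.Agent.P057T.Poi

namespace Vale.Agent.P057T.Bg

namespace Bu

theorem sm {β : ℝ} (hβ : 0 < β) (t : ℝ) :
    Summable fun y : ℤ => Real.exp (-π * (β⁻¹ * y + t) ^ 2) :=
  summable_of_sum_le (fun _ => (Real.exp_pos _).le) (Rg.Dem.th1 hβ t)

theorem up {β : ℝ} (hβ : 0 < β) (t : ℝ) : ∑' y : ℤ, Real.exp (-π * (β⁻¹ * y + t) ^ 2) ≤ 1 + β :=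
  tsum_le_of_sum_le' (by positivity) (Rg.Dem.th1 hβ t)

theorem th_unit (a x : ℝ) : th (a • (1 : Matrix Unit Unit ℝ)) (fun _ => x) =
    ∑' y : ℤ, Real.exp (-π * (a * y + a * x) ^ 2) := by
  rw [th, ← (Equiv.funUnique Unit ℤ).symm.tsum_eq]
  refine tsum_congr fun y => ?_
  simp only [gq, qf, smul_mulVec, one_mulVec, Pi.smul_apply, smul_eq_mul, Pi.add_apply, toR,
    univ_unique, sum_singleton, Equiv.funUnique_symm_apply, uniqueElim_const]
  congr 3
  ring

theorem lo {β : ℝ} (hβ : 0 < β) (t : ℝ) :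
    β - 1 ≤ ∑' y : ℤ, Real.exp (-π * (β⁻¹ * y + t) ^ 2) := by
  have h1 : (1 : Matrix Unit Unit ℝ).det ≠ 0 := by simp
  have hb : β⁻¹ ≠ 0 := (inv_pos.2 hβ).ne'
  have h := abs_th_sub (det_smul_ne hb h1) (fun _ => β * t)
  rw [dual_smul hb h1, inv_inv, inv_one, transpose_one, th_unit,
    show (0 : Unit → ℝ) = fun _ => 0 from rfl, th_unit, det_smul, det_one, mul_one,
    Fintype.card_unit, pow_one, abs_of_pos (inv_pos.2 hβ), ← mul_assoc β⁻¹ β t,
    inv_mul_cancel₀ hβ.ne', one_mul] at h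
  have h2 := up (inv_pos.2 hβ) (β * 0)
  rw [inv_inv] at h2
  have h3 := (abs_le.1 h).1
  have h4 : 1 - β⁻¹ ≤ β⁻¹ * ∑' y : ℤ, Real.exp (-π * (β⁻¹ * y + t) ^ 2) := by linarith
  have h5 := mul_le_mul_of_nonneg_left h4 hβ.le
  rwa [mul_sub, mul_one, mul_inv_cancel₀ hβ.ne', ← mul_assoc, mul_inv_cancel₀ hβ.ne', one_mul] at h5

theorem far {s K : ℝ} (hK : 0 ≤ K) (h : K ≤ |s|) :
    Real.exp (-π * s ^ 2) ≤ Real.exp (-(2 * K ^ 2)) * Real.exp (-π * (s / 2) ^ 2) := by
  rw [← Real.exp_add, Real.exp_le_exp]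
  have h1 : K ^ 2 ≤ s ^ 2 := by rw [← sq_abs s]; exact pow_le_pow_left₀ hK h 2
  have h2 := Real.pi_gt_three
  nlinarith [sq_nonneg s, mul_nonneg (by linarith : 0 ≤ π - 3) (sq_nonneg s)]

theorem one {β K : ℝ} (hβ : 0 < β) (hK : 0 ≤ K) (t : ℝ) (J : Finset ℤ)
    (hJ : ∀ y : ℤ, |β⁻¹ * y + t| ≤ K → y ∈ J) :
    β - 1 - Real.exp (-(2 * K ^ 2)) * (1 + 2 * β) ≤ ∑ y ∈ J, Real.exp (-π * (β⁻¹ * y + t) ^ 2) := by
  have b2 : 0 < 2 * β := by linarith
  have s2 := sm b2 (t / 2)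
  have s3 : HasSum (fun y : ℤ => if y ∈ J then Real.exp (-π * (β⁻¹ * y + t) ^ 2) else 0)
      (∑ y ∈ J, Real.exp (-π * (β⁻¹ * y + t) ^ 2)) := by
    have h := hasSum_sum_of_ne_finset_zero (s := J) (L := SummationFilter.unconditional ℤ)
      (f := fun y : ℤ => if y ∈ J then Real.exp (-π * (β⁻¹ * y + t) ^ 2) else 0)
      fun y hy => if_neg hy
    rwa [sum_congr rfl fun y hy => if_pos hy] at h
  have s4 := s3.add (s2.hasSum.mul_left (Real.exp (-(2 * K ^ 2))))
  have h := hasSum_le (fun y => ?_) (sm hβ t).hasSum s4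
  · have h1 := lo hβ t
    have h2 := mul_le_mul_of_nonneg_left (up b2 (t / 2)) (Real.exp_pos (-(2 * K ^ 2))).le
    linarith
  · split_ifs with hy
    · exact le_add_of_nonneg_right (by positivity)
    · rw [zero_add]
      refine (far hK (le_of_lt (not_le.1 fun e => hy (hJ y e)))).trans (le_of_eq ?_)
      congr 4
      field_simp

theorem pw_le {D : ℕ} {σ : ℝ} (h0 : 0 < σ) (h1 : σ ≤ 1) :
    (1 + σ / (2 * (D + 1))) ^ D ≤ 1 + σ := by
  have d0 : (0 : ℝ) < D + 1 := by positivity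
  have e1 : 1 + σ / (2 * (D + 1)) ≤ Real.exp (σ / (2 * (D + 1))) := by
    have := Real.add_one_le_exp (σ / (2 * (D + 1)))
    linarith
  refine (pow_le_pow_left₀ (by positivity) e1 D).trans ?_
  rw [← Real.exp_nat_mul]
  have e2 : (D : ℝ) * (σ / (2 * (D + 1))) ≤ σ / 2 := by
    rw [mul_div_assoc', div_le_div_iff₀ (by positivity) (by norm_num)]
    nlinarith
  refine (Real.exp_le_exp.2 e2).trans ?_
  refine (Real.exp_bound_div_one_sub_of_interval' (by linarith) (by linarith)).le.trans ?_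
  rw [div_le_iff₀ (by linarith)]
  nlinarith

end Bu

open Bu in
theorem boxu : BOXU := by
  intro κ α _ _ u E c r η σ B η0 σ0 σ1 B0 hr hE hB
  obtain ⟨P, hP⟩ : ∃ P : ℝ, P = ((Fintype.card κ : ℝ) + 1) / σ := ⟨_, rfl⟩
  have D0 : (0 : ℝ) ≤ Fintype.card κ := Nat.cast_nonneg _
  have P1 : 1 ≤ P := by rw [hP, le_div_iff₀ σ0]; linarith
  have hr' : ∀ v, 100 * P ^ 2 * η ≤ r v := fun v => by
    have h := hr v
    rw [hP, div_pow, mul_div_assoc', div_mul_eq_mul_div, div_le_iff₀ (by positivity)]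
    linarith
  have β0 : 0 < 8 * P := by linarith
  have h0 : 0 < η / (8 * P) := by positivity
  let J : κ → Finset ℤ := fun v =>
    Icc ⌈(c v - r v - 8 * P * η) / (η / (8 * P))⌉ ⌊(c v + r v + 8 * P * η) / (η / (8 * P))⌋
  have r0 : ∀ v, 0 < r v := fun v => lt_of_lt_of_le (by positivity) (hr' v)
  have cJ : ∀ v, ((J v).card : ℝ) * η ≤ (8 * P - 2) * ((1 + 1 / (2 * P)) * (2 * r v)) := by
    intro v
    have r1 := r0 v
    have h1 : ((J v).card : ℝ) ≤ (2 * r v + 16 * P * η) / (η / (8 * P)) + 1 := by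
      have e : (2 * r v + 16 * P * η) / (η / (8 * P)) =
          (c v + r v + 8 * P * η) / (η / (8 * P)) - (c v - r v - 8 * P * η) / (η / (8 * P)) := by
        ring
      have p0 : 0 ≤ (2 * r v + 16 * P * η) / (η / (8 * P)) := by positivity
      have a1 := Int.floor_le ((c v + r v + 8 * P * η) / (η / (8 * P)))
      have a2 := Int.le_ceil ((c v - r v - 8 * P * η) / (η / (8 * P)))
      simp only [J]
      rw [Int.card_Icc]
      rcases le_total 0 (⌊(c v + r v + 8 * P * η) / (η / (8 * P))⌋ + 1 -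
        ⌈(c v - r v - 8 * P * η) / (η / (8 * P))⌉) with h | h
      · rw [← Int.cast_natCast, Int.toNat_of_nonneg h]
        push_cast
        linarith
      · rw [Int.toNat_of_nonpos h]
        push_cast
        linarith
    have h2 := mul_le_mul_of_nonneg_right h1 η0.le
    have e : ((2 * r v + 16 * P * η) / (η / (8 * P)) + 1) * η =
        8 * P * (2 * r v + 16 * P * η) + η := by
      field_simp
    have e2 : (8 * P - 2) * ((1 + 1 / (2 * P)) * (2 * r v)) =
        16 * P * r v + 4 * r v - 2 * r v / P := by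
      field_simp
      ring
    have h3 : 2 * r v / P ≤ 2 * r v := div_le_self (by linarith) P1
    have h4 := hr' v
    have h5 : η ≤ P ^ 2 * η := le_mul_of_one_le_left η0.le (one_le_pow₀ P1)
    rw [e] at h2
    rw [e2]
    nlinarith
  have ex : Real.exp (-(2 * (8 * P) ^ 2)) * (1 + 2 * (8 * P)) ≤ 1 := by
    rw [Real.exp_neg, inv_mul_le_iff₀ (Real.exp_pos _), mul_one]
    have := Real.add_one_le_exp (2 * (8 * P) ^ 2)
    nlinarith
  have lw : ∀ z ∈ E, (8 * P - 2) ^ Fintype.card κ ≤ ∑ n ∈ Fintype.piFinset J,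
      Real.exp (-π * ∑ v, ((u z v - η / (8 * P) * n v) / η) ^ 2) := by
    intro z hz
    have e : ∀ n : κ → ℤ, Real.exp (-π * ∑ v, ((u z v - η / (8 * P) * n v) / η) ^ 2) =
        ∏ v, Real.exp (-π * ((8 * P)⁻¹ * n v + -(u z v / η)) ^ 2) := by
      intro n
      rw [← Real.exp_sum, mul_sum]
      congr 1
      refine sum_congr rfl fun v _ => ?_
      field_simp
      ring
    simp only [e]
    rw [← prod_univ_sum J fun v (y : ℤ) => Real.exp (-π * ((8 * P)⁻¹ * y + -(u z v / η)) ^ 2),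
      ← card_univ, ← prod_const]
    refine prod_le_prod (fun _ _ => by linarith) fun v _ => ?_
    refine le_trans (by linarith) (one β0 β0.le _ (J v) fun y hy => ?_)
    have a := abs_le.1 (hE z hz v)
    have b := abs_le.1 hy
    have e1 : η / (8 * P) * y = η * ((8 * P)⁻¹ * y + -(u z v / η)) + u z v := by
      field_simp
      ring
    have b1 := mul_le_mul_of_nonneg_left b.1 η0.le
    have b2 := mul_le_mul_of_nonneg_left b.2 η0.le
    refine mem_Icc.2 ⟨Int.ceil_le.2 ?_, Int.le_floor.2 ?_⟩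
    · rw [div_le_iff₀ h0, mul_comm (y : ℝ), e1]
      linarith
    · rw [le_div_iff₀ h0, mul_comm (y : ℝ), e1]
      linarith
  have q0 : 0 < (8 * P - 2) ^ Fintype.card κ := pow_pos (by linarith) _
  have h1 : (E.card : ℝ) * (8 * P - 2) ^ Fintype.card κ ≤
      (Fintype.piFinset J).card * (B * η ^ Fintype.card κ) := by
    calc _ = ∑ z ∈ E, (8 * P - 2) ^ Fintype.card κ := by rw [sum_const, nsmul_eq_mul]
      _ ≤ _ := sum_le_sum lw
      _ = _ := sum_comm
      _ ≤ ∑ n ∈ Fintype.piFinset J, B * η ^ Fintype.card κ :=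
        sum_le_sum fun n _ => hB fun v => η / (8 * P) * n v
      _ = _ := by rw [sum_const, nsmul_eq_mul]
  have h2 : ((Fintype.piFinset J).card : ℝ) * η ^ Fintype.card κ ≤
      (8 * P - 2) ^ Fintype.card κ * ((1 + 1 / (2 * P)) ^ Fintype.card κ * ∏ v, 2 * r v) := by
    rw [Fintype.card_piFinset, Nat.cast_prod, ← card_univ, ← prod_const, ← prod_const, ← prod_const,
      ← prod_mul_distrib, ← prod_mul_distrib, ← prod_mul_distrib]
    exact prod_le_prod (fun v _ => by positivity) fun v _ => cJ v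
  have h3 : (1 + 1 / (2 * P)) ^ Fintype.card κ ≤ 1 + σ := by
    refine le_trans (le_of_eq ?_) (pw_le (D := Fintype.card κ) σ0 σ1)
    rw [hP]
    congr 2
    field_simp
  have p0 : 0 ≤ ∏ v, 2 * r v := prod_nonneg fun v _ => by linarith [r0 v]
  refine le_of_mul_le_mul_right (h1.trans ?_) q0
  calc _ = B * ((Fintype.piFinset J).card * η ^ Fintype.card κ) := by ring
    _ ≤ B * ((8 * P - 2) ^ Fintype.card κ * ((1 + σ) * ∏ v, 2 * r v)) :=
      mul_le_mul_of_nonneg_left (h2.trans (mul_le_mul_of_nonneg_left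
        (mul_le_mul_of_nonneg_right h3 p0) q0.le)) B0
    _ = _ := by ring

end Vale.Agent.P057T.Bg
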