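import Vale.Agent.P057T.Mt.Defs
import Vale.Agent.P057T.Gk.Rows

/-! Bridge from multi-affine towers with Gaussian regularity to towers with sharp counts. -/

set_option linter.all false

open MvPolynomial Finset
open scoped Real

namespace Vale.Agent.P057T.Bg

open Vale.Agent.P057T.Mt Vale.Agent.P057T.Gk

noncomputable section

variable {ι Γ : Type} [Fintype ι] [DecidableEq ι] [Fintype Γ] [DecidableEq Γ]

/-- `T` is the real point model of `M` -/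
structure Rep (M : MT ι Γ) (T : TT Γ ι) : Prop where
  U : M.U = univ
  ty : T.ty = M.col
  u : ∀ z v, T.u z v = eval z (M.sc v)
  vol : ∀ V : Finset ι, (∀ a b, M.col a = M.col b → a ∈ V → b ∈ V) →
    ∏ v ∈ V, T.dv v = (M.rs V).mn

/-- the window with centre `c` and width `l`, in units of the scaled chart -/
def wn (M : MT ι Γ) (l c : ι → ℝ) : MT ι Γ :=
  (M.cen fun v => c v / M.sg v).wid fun v => (l v)⁻¹

/-- upper bound for a subset of a box from Gaussian windows -/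
def BOXU : Prop := ∀ (κ α : Type) [Fintype κ] [DecidableEq κ] (u : α → κ → ℝ) (E : Finset α)
  (c r : κ → ℝ) (η σ B : ℝ), 0 < η → 0 < σ → σ ≤ 1 → 0 ≤ B →
    (∀ v, 100 * ((Fintype.card κ : ℝ) + 1) ^ 2 * η ≤ σ ^ 2 * r v) →
    (∀ z ∈ E, ∀ v, |u z v - c v| ≤ r v) →
    (∀ t : κ → ℝ, ∑ z ∈ E, Real.exp (-π * ∑ v, ((u z v - t v) / η) ^ 2) ≤
      B * η ^ Fintype.card κ) →
    (E.card : ℝ) ≤ (1 + σ) * (B * ∏ v, 2 * r v)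

/-- lower bound for a full box from Gaussian windows -/
def BOXL : Prop := ∀ (κ α : Type) [Fintype κ] [DecidableEq κ] (u : α → κ → ℝ) (E : Finset α)
  (c r : κ → ℝ) (η σ B B' : ℝ), 0 < η → 0 < σ → σ ≤ 1 → 0 ≤ B → 0 ≤ B' →
    (∀ v, 100 * ((Fintype.card κ : ℝ) + 1) ^ 2 * η ≤ σ ^ 2 * r v) →
    (∀ z, (∀ v, |u z v - c v| ≤ r v) → z ∈ E) →
    (∀ t : κ → ℝ, Summable (fun z => Real.exp (-π * ∑ v, ((u z v - t v) / (2 * η)) ^ 2)) ∧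
      ∑' z, Real.exp (-π * ∑ v, ((u z v - t v) / (2 * η)) ^ 2) ≤ B' * (2 * η) ^ Fintype.card κ ∧
      B * η ^ Fintype.card κ ≤ ∑' z, Real.exp (-π * ∑ v, ((u z v - t v) / η) ^ 2)) →
    ((1 - σ) * B - σ * B') * ∏ v, 2 * r v ≤ E.card

/-- windows -/
def WINR : Prop := ∀ (ι Γ : Type) [Fintype ι] [DecidableEq ι] [Fintype Γ] [DecidableEq Γ]
  (M : MT ι Γ) (l c : ι → ℝ), M.Ok → (∀ v, 0 < l v) →
    (wn M l c).Ok ∧ (wn M l c).mn = M.mn * ∏ v ∈ M.U, l v ∧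
    (∀ z v, eval z ((wn M l c).sc v) = (eval z (M.sc v) - c v) / l v) ∧
    (∀ z, (wn M l c).nu z =
      Real.exp (-π * ∑ v ∈ M.U, ((eval (Eq.cz z) (M.sc v) - c v) / l v) ^ 2)) ∧
    (∀ (k : ℕ) (Λ Λ' L d : ℝ), 0 < L → (∀ v ∈ M.U, (l v)⁻¹ ≤ L) → 0 < Λ' → Λ' * L ≤ Λ →
      M.TH k Λ d → (wn M l c).TH k Λ' d) ∧
    ∀ T : TT Γ ι, Rep M T → Rep (wn M l c) (T.sc l c)

/-- sharp counts in boxes -/
def CNT : Prop := ∀ a : ℕ, ∃ C : ℕ, ∀ (ι Γ : Type) [Fintype ι] [DecidableEq ι] [Fintype Γ]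
  [DecidableEq Γ] (M : MT ι Γ) (Y : ℝ) (c r : ι → ℝ) (E : Finset (ι → ℤ)), Fintype.card Γ ≤ a →
    (C : ℝ) ≤ Y → (Fintype.card ι : ℝ) ≤ Real.exp Y → M.Ok →
    M.TH 0 (Real.exp (C * Y)) (Real.exp (-(C * Y))) → (∀ v, Real.exp (-Y) ≤ r v) →
    (∀ z, z ∈ E ↔ z ∈ Eq.Lat M.U ∧ ∀ v ∈ M.U, |eval (Eq.cz z) (M.sc v) - c v| ≤ r v) →
    |(E.card : ℝ) - M.mn * ∏ v ∈ M.U, 2 * r v| ≤ Real.exp (-Y) * (M.mn * ∏ v ∈ M.U, 2 * r v)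

/-- few points of a box of the base have an irregular fibre -/
def BAD : Prop := ∀ a : ℕ, ∃ C : ℕ, ∀ (ι Γ : Type) [Fintype ι] [DecidableEq ι] [Fintype Γ]
  [DecidableEq Γ] (M : MT ι Γ) (F : Finset Γ) (Y : ℝ) (c r : ι → ℝ) (E : Finset (ι → ℤ)),
    Fintype.card Γ ≤ a → (C : ℝ) ≤ Y → (Fintype.card ι : ℝ) ≤ Real.exp Y → M.Ok →
    M.TH 0 (Real.exp (C * Y)) (Real.exp (-(C * Y))) → (∀ v, Real.exp (-Y) ≤ r v) →
    (∀ z ∈ E, z ∈ Eq.Lat (M.bs F).U ∧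
      (∀ v ∈ (M.bs F).U, |eval (Eq.cz z) (M.sc v) - c v| ≤ r v) ∧
      ¬ (M.fib F z).TH 0 (Real.exp Y) (Real.exp (-Y))) →
    (E.card : ℝ) ≤ Real.exp (-Y) * ((M.bs F).mn * ∏ v ∈ (M.bs F).U, 2 * r v)

/-- regular towers are typical -/
def G0R : Prop := ∀ a : ℕ, ∃ C : ℕ, ∀ (ι Γ : Type) [Fintype ι] [DecidableEq ι] [Fintype Γ]
  [DecidableEq Γ] (M : MT ι Γ) (T : TT Γ ι) (Y : ℝ), Fintype.card Γ ≤ a → (C : ℝ) ≤ Y →
    (Fintype.card ι : ℝ) ≤ Real.exp Y → M.Ok → T.Ok → Rep M T →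
    M.TH 0 (Real.exp (C * Y)) (Real.exp (-(C * Y))) → G00 T (Real.exp (-Y))

/-- the tower of increments -/
def INC : Prop := ∀ (ι Γ κ : Type) [Fintype ι] [DecidableEq ι] [Fintype Γ] [DecidableEq Γ]
  [Fintype κ] [DecidableEq κ] (M : MT ι Γ) (T : TT Γ ι) (i : Γ), M.Ok → Rep M T →
    ∃ (M' : MT (T.CV i κ) (Γ ⊕ κ)) (j : T.CV i κ → Cp.CV M.col (Option κ))
      (γ : Γ ⊕ κ → Γ × Option κ),
      M'.Ok ∧ Rep M' (T.cpy i κ) ∧ Emb M' (M.cpy (Option κ)) j γ 1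

/-- typical to depth `n` -/
def GNR : Prop := ∀ a n : ℕ, ∃ C : ℕ, ∀ (ι Γ : Type) [Fintype ι] [DecidableEq ι] [Fintype Γ]
  [DecidableEq Γ] (M : MT ι Γ) (T : TT Γ ι) (Y : ℝ) (k : ℕ), Fintype.card Γ ≤ a → (C : ℝ) ≤ Y →
    (Fintype.card ι : ℝ) ≤ Real.exp Y → M.Ok → T.Ok → Rep M T → 9 ^ n ≤ k + 1 →
    M.TH k (Real.exp (C * Y)) (Real.exp (-(C * Y))) → T.Gn n (Real.exp (-Y))

/-- the model exists -/
def EXT : Prop := ∀ (ι Γ : Type) [Fintype ι] [DecidableEq ι] [Fintype Γ] [DecidableEq Γ]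
  (M : MT ι Γ), M.Ok → M.U = univ → ∃ T : TT Γ ι, Rep M T ∧ T.Ok

end

end Vale.Agent.P057T.Bg
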