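import Vale.Agent.P057T.Bg.Defs
import Vale.Agent.P057T.Mt.Tok
import Vale.Agent.P057T.Gk.Bas

/-! Row EXT: the real point model of a multi-affine tower. -/

set_option linter.all false

open MvPolynomial Finset

namespace Vale.Agent.P057T.Bg

open Vale.Agent.P057T.Mt Vale.Agent.P057T.Gk Vale.Agent.P057T.Gk.TT

noncomputable section

namespace Xt

variable {ι Γ : Type} [Fintype ι] [DecidableEq ι] [Fintype Γ] [DecidableEq Γ] {T : TT Γ ι}

theorem mon (a : Γ) (m : ι →₀ ℕ) :
    (dg T.ty a m = 0 → T.Ind a fun z => m.prod fun b k => z b ^ k) ∧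
      (dg T.ty a m ≤ 1 → T.Aff a fun z => m.prod fun b k => z b ^ k) := by
  induction m using Finsupp.induction with
  | zero => exact ⟨fun _ => by simpa using ind_const a 1, fun _ => by simpa using aff_const a 1⟩
  | single_add b k m hb hk ih =>
    have e : (fun z : ι → ℝ => (Finsupp.single b k + m).prod fun b k => z b ^ k) =
        fun z => z b ^ k * m.prod fun b k => z b ^ k := funext fun z => by
      rw [Finsupp.prod_add_index' (fun _ => pow_zero _) fun _ _ _ => pow_add _ _ _,
        Finsupp.prod_single_index (h := fun b k => z b ^ k) (pow_zero _)]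
    have d : dg T.ty a (Finsupp.single b k + m) = (if a ∈ T.ty b then k else 0) + dg T.ty a m := by
      rw [← Tok.dg_single]; exact map_add _ _ _
    rw [e, d]
    by_cases h : a ∈ T.ty b
    · rw [if_pos h]
      refine ⟨fun h0 => by omega, fun h1 => ?_⟩
      obtain rfl : k = 1 := by omega
      simp only [pow_one]
      exact ((T.fm_coord (G := {a}) b).2 a (mem_singleton_self a)).mul (ih.1 (by omega))
    · rw [if_neg h, zero_add]
      have i : T.Ind a fun z => z b ^ k := fun z z' hz => by beta_reduce; rw [hz b h]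
      exact ⟨fun h0 => i.op (ih.1 h0) (· * ·), fun h1 => Aff.mul' i (ih.2 h1)⟩

theorem ev_congr {F : MvPolynomial ι ℝ} {z z' : ι → ℝ} (h : ∀ b ∈ F.vars, z b = z' b) :
    eval z F = eval z' F := eval₂Hom_congr' rfl (fun b hb _ => h b hb) rfl

/-- typed polynomials are forms -/
theorem fm_ev {e : Finset Γ} {F : MvPolynomial ι ℝ} (h : Ty T.ty e F) :
    T.Fm e univ fun z => eval z F := by
  refine ⟨fun z z' hz => ev_congr fun b hb => hz b (Tok.col_sub h hb), fun a _ => ?_⟩
  have := (fm_sum (T := T) (S := univ) (G := {a}) F.support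
    (F := fun m z => coeff m F * m.prod fun b k => z b ^ k) fun m hm =>
      ⟨fun z z' hz => by rw [show z = z' from funext fun v => hz v (subset_univ _)], fun c hc => by
        rw [mem_singleton.1 hc]
        exact ((mon a m).2 ((h m hm a).trans (by split_ifs <;> omega))).smul _⟩).2 a
    (mem_singleton_self a)
  simpa only [eval_eq, Finsupp.prod] using this

/-- substitution of typed forms -/
theorem pull {π : (ι → ℝ) → ι → ℝ} (h : ∀ v, T.Fm (T.ty v) univ fun z => π z v) {S : Finset Γ}
    {f : Fn ι} (hf : T.Fm S univ f) : T.Fm S univ fun z => f (π z) := by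
  refine ⟨fun z z' hz => hf.1 _ _ fun v hv => (h v).1 z z' (hz.mono hv), fun a ha z => ?_⟩
  obtain ⟨L, hL⟩ := hf.2 a ha (π z)
  choose M hM using fun v => (h v).2 a (mem_univ a) z
  refine ⟨L.comp (LinearMap.pi M), fun k hk => ?_⟩
  have e : π (z + k) = π z + fun v => M v k := funext fun v => hM v k hk
  show f (π (z + k)) = f (π z) + L (fun v => M v k)
  rw [e]
  refine hL _ fun v hv => ?_
  have k1 := hM v k hk
  have k2 : π (z + k) v = π z v := (h v).1 _ _ fun w hw => by
    rw [Pi.add_apply, hk w fun hh => hv (hw hh), add_zero]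
  simp only at k1
  linarith

variable {M : MT ι Γ}

/-- one step of the inversion -/
def ph (M : MT ι Γ) (x z : ι → ℝ) : ι → ℝ :=
  fun b => ∑ a, M.B b a * ((M.sg a)⁻¹ * x a - eval z (M.p a))

def ps (M : MT ι Γ) (x : ι → ℝ) : ι → ℝ := (ph M x)^[univ.sup M.w] 0

theorem stab (h : M.Ok) (hU : M.U = univ) (x z z' : ι → ℝ) (n : ℕ) :
    ∀ b, M.w b ≤ n → (ph M x)^[n] z b = (ph M x)^[n] z' b := by
  induction n with
  | zero => exact fun b hb => absurd ((h.w1 b).trans hb) (by omega)
  | succ n ih =>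
    intro b hb
    rw [Function.iterate_succ_apply', Function.iterate_succ_apply']
    refine sum_congr rfl fun a _ => ?_
    by_cases k : M.B b a = 0
    · rw [k, zero_mul, zero_mul]
    rw [ev_congr fun c hc => ih c ?_]
    obtain ⟨m, hm, hcm⟩ := (mem_vars_iff_mem_support c).1 hc
    have k1 : Finsupp.weight M.w m < M.w a := h.pd a (hU ▸ mem_univ a) m hm
    have k2 := (h.blk b a (Or.inr k)).1
    have k3 := Finsupp.le_weight_of_ne_zero' M.w (Finsupp.mem_support_iff.1 hcm)
    omega

theorem fix (h : M.Ok) (hU : M.U = univ) (x : ι → ℝ) : ph M x (ps M x) = ps M x := funext fun b => by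
  rw [ps, ← Function.iterate_succ_apply' (ph M x), Function.iterate_succ_apply]
  exact stab h hU x _ _ _ b (le_sup (f := M.w) (mem_univ b))

theorem uniq (h : M.Ok) (hU : M.U = univ) {x z : ι → ℝ} (hz : ph M x z = z) : ps M x = z :=
  funext fun b => by
    rw [← Function.iterate_fixed hz (univ.sup M.w)]
    exact stab h hU x _ _ _ b (le_sup (f := M.w) (mem_univ b))

theorem ev_sc (z : ι → ℝ) (a : ι) :
    eval z (M.sc a) = M.sg a * (M.A.mulVec z a + eval z (M.p a)) := by
  simp [MT.sc, Tok.ch_eq, Matrix.mulVec, dotProduct]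

theorem ph_eq (x z : ι → ℝ) :
    ph M x z = M.B.mulVec fun a => (M.sg a)⁻¹ * x a - eval z (M.p a) := rfl

theorem fm_it (h : M.Ok) (hU : M.U = univ) (hT : T.ty = M.col) (n : ℕ) :
    ∀ v, T.Fm (T.ty v) univ fun x => (ph M x)^[n] 0 v := by
  induction n with
  | zero => exact fun v => fm_const _ _ 0
  | succ n ih =>
    intro v
    simp only [Function.iterate_succ_apply']
    refine fm_sum univ fun a _ => ?_
    by_cases k : M.B v a = 0
    · simpa only [k, zero_mul] using fm_const (T := T) _ _ 0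
    rw [show T.ty v = T.ty a by rw [hT]; exact (h.blk v a (Or.inr k)).2]
    exact (((T.fm_coord a).smul _).sub
      (pull ih (fm_ev (by rw [hT]; exact h.ty a (hU ▸ mem_univ a))))).smul _

theorem cont (n : ℕ) : Continuous fun x => (ph M x)^[n] 0 := by
  induction n with
  | zero => exact continuous_const
  | succ n ih =>
    simp only [Function.iterate_succ_apply']
    exact continuous_pi fun b => continuous_finset_sum _ fun a _ => continuous_const.mul
      ((continuous_const.mul (continuous_apply a)).sub ((M.p a).continuous_eval.comp ih))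

def cl (M : MT ι Γ) (v : ι) : Finset ι := univ.filter fun b => M.col b = M.col v

def md (M : MT ι Γ) : TT Γ ι :=
  ⟨M.col, fun z v => eval z (M.sc v), ps M,
    fun v => M.G.dv (cl M v) ^ ((cl M v).card : ℝ)⁻¹ * (M.sg v)⁻¹⟩

theorem bk (h : M.Ok) {V : Finset ι} (hV : ∀ a b, M.col a = M.col b → a ∈ V → b ∈ V) :
    M.G.Bk V := fun a b k => ⟨hV a b (h.blk a b k).2, hV b a (h.blk a b k).2.symm⟩

theorem bk_cl (h : M.Ok) (v : ι) : M.G.Bk (cl M v) :=
  bk h fun a b k ha => by simp only [cl, mem_filter, mem_univ, true_and] at ha ⊢; rw [← k, ha]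

theorem vol (hD : Eq.DET) (h : M.Ok) (V : Finset ι) :
    (∀ a b, M.col a = M.col b → a ∈ V → b ∈ V) →
      ∏ v ∈ V, M.G.dv (cl M v) ^ ((cl M v).card : ℝ)⁻¹ = M.G.dv V := by
  obtain ⟨d1, d2, d3, -⟩ := hD _ ι M.G (Tok.gok h)
  induction V using Finset.strongInduction with
  | H V ih =>
    intro hV
    rcases V.eq_empty_or_nonempty with rfl | ⟨a, ha⟩
    · rw [prod_empty, d2]
    have m : ∀ b, b ∈ cl M a ↔ M.col b = M.col a := fun b => by simp [cl]
    have s : cl M a ⊆ V := fun b hb => hV a b ((m b).1 hb).symm ha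
    have n : (cl M a).Nonempty := ⟨a, (m a).2 rfl⟩
    rw [d3 V _ (bk h hV) (bk_cl h a) s, ← prod_sdiff s, mul_comm, ih _ (sdiff_ssubset s n)
      fun x y k hx => mem_sdiff.2 ⟨hV x y k (mem_sdiff.1 hx).1,
        fun j => (mem_sdiff.1 hx).2 ((m x).2 (k.trans ((m y).1 j)))⟩,
      prod_congr rfl fun b hb => by rw [show cl M b = cl M a by rw [cl, (m b).1 hb]; rfl],
      prod_const, Real.rpow_inv_natCast_pow (d1 _ (bk_cl h a)).le n.card_pos.ne']

end Xt

open Xt

theorem ext (hK : TOK) (hD : Eq.DET) : EXT := by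
  intro ι Γ _ _ _ _ M h hU
  have hu : ∀ a, a ∈ M.U := fun a => hU ▸ mem_univ a
  have BA : M.B * M.A = 1 := mul_eq_one_comm.1 h.AB
  have fψ : ∀ v, (md M).Fm ((md M).ty v) univ fun x => (md M).ψ x v := fm_it h hU rfl _
  have l : ∀ z, (md M).ψ ((md M).u z) = z := fun z => uniq h hU (by
    rw [ph_eq, show (fun a => (M.sg a)⁻¹ * (md M).u z a - eval z (M.p a)) = M.A.mulVec z from
      funext fun a => by
        show _ * eval z (M.sc a) - _ = _
        rw [ev_sc, inv_mul_cancel_left₀ (h.sg a).ne', add_sub_cancel_right],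
      Matrix.mulVec_mulVec, BA, Matrix.one_mulVec])
  refine ⟨md M, ⟨hU, rfl, fun _ _ => rfl, fun V hV => ?_⟩, fun v => h.ne v (hu v), fun v => ?_, fψ, l,
    fun x => funext fun v => ?_, fun v => ?_, fun S K => ?_⟩
  · show ∏ v ∈ V, M.G.dv (cl M v) ^ ((cl M v).card : ℝ)⁻¹ * (M.sg v)⁻¹ = _
    rw [prod_mul_distrib, vol hD h V hV]
    rfl
  · have := (fm_ev (T := md M) ((hK ι Γ M h).2.2.2.2.2.1 v (hu v)).2).smul (M.sg v)
    show (md M).Fm (M.col v) univ fun z => eval z (M.sc v)
    simpa only [MT.sc, map_mul, eval_C] using this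
  · show eval (ps M x) (M.sc v) = x v
    rw [ev_sc, show M.A.mulVec (ps M x) = M.A.mulVec (ph M x (ps M x)) by rw [fix h hU], ph_eq,
      Matrix.mulVec_mulVec, h.AB, Matrix.one_mulVec, sub_add_cancel,
      mul_inv_cancel_left₀ (h.sg v).ne']
  · exact mul_pos (Real.rpow_pos_of_pos ((hD _ ι M.G (Tok.gok h)).1 _ (bk_cl h v)) _)
      (inv_pos.2 (h.sg v))
  · obtain ⟨R, hR⟩ := (isCompact_closedBall (0 : ι → ℝ) |K|).exists_bound_of_continuousOn
      (cont (M := M) (univ.sup M.w)).continuousOn
    refine (Set.Finite.pi' fun _ : ι => Set.finite_Icc (-⌈|R|⌉) ⌈|R|⌉).subset fun z hz v => ?_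
    rw [Set.mem_Icc, ← abs_le]
    refine Int.cast_le (R := ℝ).1 (le_trans ?_ (Int.le_ceil _))
    by_cases hv : (md M).ty v ⊆ S
    swap
    · rw [hz.1 v hv]; simp
    have k := hR (fun w => if (md M).ty w ⊆ S then (md M).u (cz z) w else 0) (by
      rw [mem_closedBall_zero_iff, pi_norm_le_iff_of_nonneg (abs_nonneg _)]
      intro w
      split_ifs with hw
      · exact (hz.2 w hw).trans (le_abs_self _)
      · simp)
    have e := (fψ v).1 ((md M).u (cz z)) (fun w => if (md M).ty w ⊆ S then (md M).u (cz z) w else 0)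
      fun w hw => (if_pos (hw.trans hv)).symm
    simp only [l] at e
    rw [Int.cast_abs, show ((z v : ℤ) : ℝ) = _ from e]
    exact ((norm_le_pi_norm _ v).trans k).trans (le_abs_self _)

end

end Vale.Agent.P057T.Bg
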